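import Vale.Agent.P269.G1I.T.H598_Cor
import Vale.Agent.P269.G1I.T.H598_Ser
import Vale.Agent.P269.G1I.Model
import Vale.Agent.P269.G1I.H598.Ser

set_option autoImplicit false

/-!
# The Euler operator on series with symmetric coefficients
-/

namespace Vale.Agent.P269.G1.H310

open Finset.HasAntidiagonal (antidiagonal)
open Vale.Agent.P269.CI Vale.Agent.P269.G1 Vale.Agent.P269.G1.H598

section gen

variable {n : ℕ} {K : Type*} [CommRing K] [Algebra ℚ K]

omit [Algebra ℚ K] in
theorem coeff_X_mul_pderiv (f : MvPowerSeries (Fin n) K) (i : Fin n) (α : Fin n →₀ ℕ) :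
    MvPowerSeries.coeff α (MvPowerSeries.X i * MvPowerSeries.pderiv K i f) =
      (α i : K) * MvPowerSeries.coeff α f := by
  classical
  rw [MvPowerSeries.X, MvPowerSeries.coeff_monomial_mul]
  by_cases h : Finsupp.single i 1 ≤ α
  · rw [if_pos h, one_mul, MvPowerSeries.coeff_pderiv, tsub_add_cancel_of_le h, mul_comm]
    congr 1
    have h1 : 1 ≤ α i := by
      have := h i
      simpa using this
    rw [Finsupp.tsub_apply, Finsupp.single_eq_same]
    have : ((α i - 1 : ℕ) : K) + 1 = ((α i - 1 + 1 : ℕ) : K) := by push_cast; ring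
    rw [this]
    congr 1
    omega
  · rw [if_neg h]
    have h1 : α i = 0 := by
      by_contra h0
      apply h
      rw [Finsupp.single_le_iff]
      omega
    rw [h1]
    simp

theorem sum_lst (α : Fin n →₀ ℕ) (f : Fin n → ℂ) :
    ((lst α).map f).sum = ∑ k, (α k : ℂ) * f k := by
  rw [Finset.sum_list_map_count]
  rw [Finset.sum_subset (Finset.subset_univ _)]
  · refine Finset.sum_congr rfl fun k _ => ?_
    rw [count_lst, nsmul_eq_mul]
  · intro k _ hk
    rw [List.mem_toFinset] at hk
    rw [List.count_eq_zero_of_not_mem hk, zero_smul]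

end gen

variable {X : CompleteIntersection}

/-- the weight `∑ (1 - p)` of a list -/
noncomputable def wt (X : CompleteIntersection) (L : List (Ins X)) : ℂ :=
  (L.map fun x => 1 - (hp X x.1 : ℂ)).sum

theorem wt_lst (α : Fin (X.dim + 1) →₀ ℕ) :
    wt X ((lst α).map (hpow X)) = ∑ k, (α k : ℂ) * (1 - ((k : ℕ) : ℂ)) := by
  rw [wt, List.map_map, ← sum_lst]
  rfl

/-- the Euler operator -/
noncomputable def eul (X : CompleteIntersection) (f : RR X) : RR X :=
  ∑ k : Fin (X.dim + 1), ((1 - ((k : ℕ) : RR X)) * MvPowerSeries.X k +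
    if (k : ℕ) = 1 then ((index X : ℤ) : RR X) else 0) * MvPowerSeries.pderiv (PowerSeries ℂ) k f

theorem ser_add (A B : ℕ → List (Ins X) → ℂ) :
    ser (fun d L => A d L + B d L) = ser A + ser B := by
  rw [ser, ser, ser, ← toSer_add]
  congr 1

theorem cst_mul_ser (A : ℕ → List (Ins X) → ℂ) (c : ℂ) :
    cst X c * ser A = ser (fun d L => c * A d L) := by
  ext α : 1
  rw [cst, MvPowerSeries.coeff_C_mul, ser, ser, coeff_toSer, coeff_toSer, mul_smul_comm]
  congr 1
  ext d
  simp

theorem ser_congr {A B : ℕ → List (Ins X) → ℂ}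
    (h : ∀ d (L : List (Fin (X.dim + 1))), A d (L.map (hpow X)) = B d (L.map (hpow X))) :
    ser A = ser B := by
  rw [ser, ser]
  congr 1
  funext L
  congr 1
  funext d
  exact h d L

theorem cst_nat (n : ℕ) : cst X (n : ℂ) = (n : RR X) := by
  unfold cst
  rw [map_natCast, map_natCast]

theorem cst_int (n : ℤ) : cst X (n : ℂ) = (n : RR X) := by
  unfold cst
  rw [map_intCast, map_intCast]

theorem cst_one : cst X 1 = 1 := by
  unfold cst
  rw [map_one, map_one]

theorem cst_sub (a b : ℂ) : cst X (a - b) = cst X a - cst X b := by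
  unfold cst
  rw [map_sub, map_sub]

theorem cst_add (a b : ℂ) : cst X (a + b) = cst X a + cst X b := by
  unfold cst
  rw [map_add, map_add]

theorem cst_mul (a b : ℂ) : cst X (a * b) = cst X a * cst X b := by
  unfold cst
  rw [map_mul, map_mul]

theorem ser_wt (A : ℕ → List (Ins X) → ℂ) :
    ∑ k : Fin (X.dim + 1), (1 - ((k : ℕ) : RR X)) * (MvPowerSeries.X k *
      MvPowerSeries.pderiv (PowerSeries ℂ) k (ser A)) = ser (fun d L => wt X L * A d L) := by
  ext α : 1
  rw [map_sum]
  have h1 : ∀ k : Fin (X.dim + 1), MvPowerSeries.coeff α ((1 - ((k : ℕ) : RR X)) *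
      (MvPowerSeries.X k * MvPowerSeries.pderiv (PowerSeries ℂ) k (ser A))) =
      PowerSeries.C ((α k : ℂ) * (1 - ((k : ℕ) : ℂ))) * MvPowerSeries.coeff α (ser A) := by
    intro k
    have h2 : (1 - ((k : ℕ) : RR X)) =
        MvPowerSeries.C (PowerSeries.C (1 - ((k : ℕ) : ℂ))) := by
      rw [map_sub, map_sub, map_one, map_one, map_natCast, map_natCast]
    rw [h2, MvPowerSeries.coeff_C_mul, coeff_X_mul_pderiv, map_mul, map_natCast]
    ring
  rw [Finset.sum_congr rfl fun k _ => h1 k, ← Finset.sum_mul, ← map_sum, ← wt_lst, ser, ser,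
    coeff_toSer, coeff_toSer, mul_smul_comm]
  congr 1
  ext d
  simp

/-- **the Euler operator on a series** -/
theorem eul_ser (A : ℕ → List (Ins X) → ℂ) (hA : SymS A) :
    eul X (ser A) = ser (fun d L => wt X L * A d L +
      (index X : ℂ) * A d ((hcls X, 0) :: L)) := by
  rw [ser_add, ← ser_wt, ← cst_mul_ser, eul]
  have h1 : ∀ k : Fin (X.dim + 1), ((1 - ((k : ℕ) : RR X)) * MvPowerSeries.X k +
      if (k : ℕ) = 1 then ((index X : ℤ) : RR X) else 0) *
        MvPowerSeries.pderiv (PowerSeries ℂ) k (ser A) =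
      (1 - ((k : ℕ) : RR X)) * (MvPowerSeries.X k *
        MvPowerSeries.pderiv (PowerSeries ℂ) k (ser A)) +
      (if (k : ℕ) = 1 then ((index X : ℤ) : RR X) *
        MvPowerSeries.pderiv (PowerSeries ℂ) k (ser A) else 0) := by
    intro k
    split_ifs <;> ring
  rw [Finset.sum_congr rfl fun k _ => h1 k, Finset.sum_add_distrib]
  congr 1
  have hdim : 1 < X.dim + 1 := by have := X.two_le_dim; omega
  rw [Finset.sum_eq_single (⟨1, hdim⟩ : Fin (X.dim + 1))]
  · rw [if_pos rfl, cst_int, pderiv_ser A hA]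
    rfl
  · intro k _ hk
    rw [if_neg]
    intro h
    exact hk (Fin.ext h)
  · simp

/-! ### Correlators -/

variable {F : ℕ → ℕ → List (Ins X) → ℂ}

theorem sgn_false (a : Bool) : sgn a false = 1 := by simp [sgn]

/-- an even insertion moves to the front -/
theorem move_even (hF : IsGW X F) (g d : ℕ) (x : Ins X) (hx : par X x.1 = false)
    (P : List (Ins X)) : ∀ (Q L : List (Ins X)),
    F g d (Q ++ (P ++ x :: L)) = F g d (Q ++ x :: (P ++ L)) := by
  induction P with
  | nil => intro Q L; rfl
  | cons y P ih =>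
    intro Q L
    have h1 := ih (Q ++ [y]) L
    simp only [List.append_assoc, List.singleton_append] at h1
    rw [List.cons_append, h1, hF.symm g d Q (P ++ L) y x, hx, sgn_false, one_mul]
    rfl

theorem lowerSum_nodesc (T : Ix X → Ix X → ℂ) (G : List (Ins X) → ℂ) (M : List (Ins X))
    (hM : ∀ x ∈ M, x.2 = 0) : lowerSum X T G M = 0 := by
  unfold lowerSum
  refine Finset.sum_eq_zero fun j _ => ?_
  rw [if_pos]
  exact hM _ (List.get_mem _ _)

theorem wt_append (L M : List (Ins X)) : wt X (L ++ M) = wt X L + wt X M := by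
  simp [wt]

/-- the grading equation without descendants -/
theorem wt_grading (hF : IsGW X F) (g d : ℕ) (M : List (Ins X)) (hM : ∀ x ∈ M, x.2 = 0) :
    wt X M * F g d M = -((1 - (g : ℂ)) * ((X.dim : ℂ) - 3) + (index X : ℂ) * d) * F g d M := by
  by_cases h0 : F g d M = 0
  · rw [h0, mul_zero, mul_zero]
  · congr 1
    have h1 := hF.grading_p g d M h0
    have h2 : ∀ M : List (Ins X), (∀ x ∈ M, x.2 = 0) →
        wt X M = -(((M.map fun x => (x.2 : ℤ) + hp X x.1 - 1).sum : ℤ) : ℂ) := by
      intro M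
      induction M with
      | nil => intro _; simp [wt]
      | cons y M ih =>
        intro hM
        have h3 := ih fun x hx => hM x (List.mem_cons_of_mem _ hx)
        have h4 : y.2 = 0 := hM y List.mem_cons_self
        unfold wt at h3 ⊢
        rw [List.map_cons, List.sum_cons, h3, List.map_cons, List.sum_cons, h4]
        push_cast
        ring
    rw [h2 M hM, h1]
    push_cast
    ring

/-- the classical term of the divisor equation -/
noncomputable def cls (X : CompleteIntersection) (g d : ℕ) (M : List (Ins X)) : ℂ :=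
  (if g = 0 ∧ d = 0 then pairTerm X (fun a b => ∑ c, hmul X a c * pairing X c b) M else 0) +
    (if g = 1 ∧ d = 0 then emptyTerm X (- (deg X * chernCoeff X (X.dim - 1)) / 24) M else 0)

theorem divisor_nodesc (hF : IsGW X F) (g d : ℕ) (M : List (Ins X)) (hM : ∀ x ∈ M, x.2 = 0) :
    F g d ((hcls X, 0) :: M) = d * F g d M + cls X g d M := by
  rw [hF.divisor g d M, lowerSum_nodesc _ _ M hM, cls]
  ring

theorem hpow_nodesc (L : List (Fin (X.dim + 1))) : ∀ x ∈ L.map (hpow X), x.2 = 0 := by
  intro x hx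
  obtain ⟨j, _, rfl⟩ := List.mem_map.1 hx
  rfl

/-- **the Euler operator on correlators** -/
theorem eul_cor (hF : IsGW X F) (g : ℕ) (P : List (Ins X)) (hP : ∀ x ∈ P, x.2 = 0) :
    eul X (ser (cor F g P)) = ser (fun d L =>
      -((1 - (g : ℂ)) * ((X.dim : ℂ) - 3) + wt X P) * cor F g P d L +
      (index X : ℂ) * cls X g d (P ++ L)) := by
  rw [eul_ser _ (symS_cor hF g P)]
  refine ser_congr fun d L => ?_
  have hM : ∀ x ∈ P ++ L.map (hpow X), x.2 = 0 := by
    intro x hx
    rcases List.mem_append.1 hx with h | h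
    · exact hP x h
    · exact hpow_nodesc L x h
  have h1 := wt_grading hF g d _ hM
  have h2 : F g d (P ++ (hcls X, 0) :: L.map (hpow X)) =
      F g d ((hcls X, 0) :: (P ++ L.map (hpow X))) :=
    move_even hF g d (hcls X, 0) rfl P [] (L.map (hpow X))
  rw [wt_append] at h1
  unfold cor
  rw [h2, divisor_nodesc hF g d _ hM]
  linear_combination h1

end Vale.Agent.P269.G1.H310
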