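import Vale.Agent.P269.G1I.T.H598_Cor
import Vale.Agent.P269.G1I.H310.Euler

set_option autoImplicit false

/-!
# [c4] the Euler equation of the structure constants
-/

namespace Vale.Agent.P269.G1.H310

open Finset.HasAntidiagonal (antidiagonal)
open Vale.Agent.P269.CI Vale.Agent.P269.G1 Vale.Agent.P269.G1.H598

variable {X : CompleteIntersection} {F : ℕ → ℕ → List (Ins X) → ℂ}

theorem smul_eq_cst (c : ℂ) (f : RR X) : c • f = cst X c * f := by
  ext α : 1
  rw [cst, MvPowerSeries.coeff_C_mul]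
  ext d
  change c * PowerSeries.coeff d (MvPowerSeries.coeff α f) = _
  simp

theorem pderiv_cst_mul (a : Fin (X.dim + 1)) (c : ℂ) (f : RR X) :
    MvPowerSeries.pderiv (PowerSeries ℂ) a (cst X c * f) =
      cst X c * MvPowerSeries.pderiv (PowerSeries ℂ) a f := by
  have h : cst X c * f = (PowerSeries.C c : PowerSeries ℂ) • f := by
    rw [cst, ← MvPowerSeries.smul_eq_C_mul]
  rw [h, Derivation.map_smul, cst, ← MvPowerSeries.smul_eq_C_mul]

theorem eul_cst_mul (c : ℂ) (f : RR X) : eul X (cst X c * f) = cst X c * eul X f := by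
  unfold eul
  rw [Finset.mul_sum]
  refine Finset.sum_congr rfl fun k _ => ?_
  rw [pderiv_cst_mul]
  ring

theorem eul_sum {ι : Type*} (s : Finset ι) (f : ι → RR X) :
    eul X (∑ i ∈ s, f i) = ∑ i ∈ s, eul X (f i) := by
  unfold eul
  rw [Finset.sum_comm]
  refine Finset.sum_congr rfl fun k _ => ?_
  rw [map_sum, Finset.mul_sum]

theorem qc_eq (F : ℕ → ℕ → List (Ins X) → ℂ) (i j k : Fin (X.dim + 1)) :
    qc F i j k = ∑ l : Fin (X.dim + 1), cst X (pairingInv X (Sum.inl l) (Sum.inl k)) *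
      ser (cor F 0 [hpow X i, hpow X j, hpow X l]) := by
  rw [qc]
  exact Finset.sum_congr rfl fun l _ => smul_eq_cst _ _

/-- the grading of the three-point functions -/
theorem eul_three (hF : IsGW X F) (i j l : Fin (X.dim + 1)) :
    eul X (ser (cor F 0 [hpow X i, hpow X j, hpow X l])) =
      cst X (((i : ℕ) : ℂ) + (j : ℕ) + (l : ℕ) - X.dim) *
        ser (cor F 0 [hpow X i, hpow X j, hpow X l]) := by
  rw [eul_cor hF 0 _ (by
    intro x hx
    simp only [List.mem_cons, List.not_mem_nil, or_false] at hx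
    rcases hx with rfl | rfl | rfl <;> rfl), cst_mul_ser]
  refine ser_congr fun d L => ?_
  have h1 : cls X 0 d ([hpow X i, hpow X j, hpow X l] ++ L.map (hpow X)) = 0 := by
    unfold cls
    simp [pairTerm]
  rw [h1]
  have h2 : wt X [hpow X i, hpow X j, hpow X l] =
      3 - ((i : ℕ) : ℂ) - (j : ℕ) - (l : ℕ) := by
    simp [wt, hpow, hp]
    ring
  rw [h2]
  push_cast
  ring

/-- **the Euler equation of the structure constants** -/
theorem eul_qc (hF : IsGW X F) (i j k : Fin (X.dim + 1)) :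
    eul X (qc F i j k) = cst X (((i : ℕ) : ℂ) + (j : ℕ) - (k : ℕ)) * qc F i j k := by
  rw [qc_eq, eul_sum, Finset.mul_sum]
  refine Finset.sum_congr rfl fun l _ => ?_
  rw [eul_cst_mul, eul_three hF]
  by_cases h : (l : ℕ) + k = X.dim
  · have h2 : ((X.dim : ℕ) : ℂ) = (l : ℕ) + (k : ℕ) := by
      have h4 := congrArg (Nat.cast : ℕ → ℂ) h
      push_cast at h4
      exact h4.symm
    rw [h2]
    have h3 : ((i : ℕ) : ℂ) + (j : ℕ) + (l : ℕ) - ((l : ℕ) + (k : ℕ)) =
        ((i : ℕ) : ℂ) + (j : ℕ) - (k : ℕ) := by ring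
    rw [h3]
    ring
  · have h2 : pairingInv X (Sum.inl l) (Sum.inl k) = 0 := by
      simp only [pairingInv]
      rw [if_neg h]
    rw [h2]
    have h3 : cst X 0 = 0 := by unfold cst; rw [map_zero, map_zero]
    rw [h3]
    ring

/-- symmetry of the derivatives of the structure constants -/
theorem pderiv_qc_symm (hF : IsGW X F) (a i j k : Fin (X.dim + 1)) :
    MvPowerSeries.pderiv (PowerSeries ℂ) a (qc F i j k) =
      MvPowerSeries.pderiv (PowerSeries ℂ) i (qc F a j k) := by
  rw [qc_eq, qc_eq, map_sum, map_sum]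
  refine Finset.sum_congr rfl fun l _ => ?_
  rw [pderiv_cst_mul, pderiv_cst_mul, pderiv_cor hF, pderiv_cor hF]
  congr 2
  funext d L
  have h := hF.symm 0 d [] ([hpow X j, hpow X l] ++ L) (hpow X a) (hpow X i)
  have h2 : sgn (par X (hpow X a).1) (par X (hpow X i).1) = 1 := sgn_false _
  rw [h2, one_mul] at h
  exact h

variable (hF : IsGW X F) (h1 : IsGenusOne F)

theorem mul_apply (x y : AA hF h1) (k : Fin (X.dim + 1)) :
    (x * y : AA hF h1) k = ∑ i, ∑ j, x i * y j * qc F i j k := rfl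

theorem sub_apply (x y : AA hF h1) (k : Fin (X.dim + 1)) :
    (x - y : AA hF h1) k = x k - y k := rfl

theorem add_apply (x y : AA hF h1) (k : Fin (X.dim + 1)) :
    (x + y : AA hF h1) k = x k + y k := rfl

/-- the four-point tensor -/
theorem c4_apply (x y z : AA hF h1) (k : Fin (X.dim + 1)) :
    (nab hF h1 x (y * z) - nab hF h1 x y * z - y * nab hF h1 x z : AA hF h1) k =
      ∑ a, ∑ i, ∑ j, x a * y i * z j * MvPowerSeries.pderiv (PowerSeries ℂ) a (qc F i j k) := by
  rw [sub_apply, sub_apply, mul_apply, mul_apply]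
  have e1 : (nab hF h1 x (y * z) : AA hF h1) k =
      ∑ a, ∑ i, ∑ j, (x a * MvPowerSeries.pderiv (PowerSeries ℂ) a (y i) * z j * qc F i j k +
        y i * (x a * MvPowerSeries.pderiv (PowerSeries ℂ) a (z j)) * qc F i j k +
        x a * y i * z j * MvPowerSeries.pderiv (PowerSeries ℂ) a (qc F i j k)) := by
    change ∑ a, x a * MvPowerSeries.pderiv (PowerSeries ℂ) a
      (∑ i, ∑ j, y i * z j * qc F i j k) = _
    refine Finset.sum_congr rfl fun a _ => ?_
    rw [map_sum, Finset.mul_sum]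
    refine Finset.sum_congr rfl fun i _ => ?_
    rw [map_sum, Finset.mul_sum]
    refine Finset.sum_congr rfl fun j _ => ?_
    rw [Derivation.leibniz, Derivation.leibniz]
    simp only [smul_eq_mul]
    ring
  have e2 : ∑ i, ∑ j, (nab hF h1 x y) i * z j * qc F i j k =
      ∑ a, ∑ i, ∑ j, x a * MvPowerSeries.pderiv (PowerSeries ℂ) a (y i) * z j * qc F i j k := by
    change ∑ i, ∑ j, (∑ a, x a * MvPowerSeries.pderiv (PowerSeries ℂ) a (y i)) * z j *
      qc F i j k = _
    simp only [Finset.sum_mul]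
    have : ∀ i : Fin (X.dim + 1), ∑ j : Fin (X.dim + 1), ∑ a : Fin (X.dim + 1),
        x a * MvPowerSeries.pderiv (PowerSeries ℂ) a (y i) * z j * qc F i j k =
        ∑ a : Fin (X.dim + 1), ∑ j : Fin (X.dim + 1),
        x a * MvPowerSeries.pderiv (PowerSeries ℂ) a (y i) * z j * qc F i j k :=
      fun i => Finset.sum_comm
    rw [Finset.sum_congr rfl fun i _ => this i, Finset.sum_comm]
  have e3 : ∑ i, ∑ j, y i * (nab hF h1 x z) j * qc F i j k =
      ∑ a, ∑ i, ∑ j, y i * (x a * MvPowerSeries.pderiv (PowerSeries ℂ) a (z j)) * qc F i j k := by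
    change ∑ i, ∑ j, y i * (∑ a, x a * MvPowerSeries.pderiv (PowerSeries ℂ) a (z j)) *
      qc F i j k = _
    simp only [Finset.mul_sum, Finset.sum_mul]
    have : ∀ i : Fin (X.dim + 1), ∑ j : Fin (X.dim + 1), ∑ a : Fin (X.dim + 1),
        y i * (x a * MvPowerSeries.pderiv (PowerSeries ℂ) a (z j)) * qc F i j k =
        ∑ a : Fin (X.dim + 1), ∑ j : Fin (X.dim + 1),
        y i * (x a * MvPowerSeries.pderiv (PowerSeries ℂ) a (z j)) * qc F i j k :=
      fun i => Finset.sum_comm
    rw [Finset.sum_congr rfl fun i _ => this i, Finset.sum_comm]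
  rw [e1, e2, e3, ← Finset.sum_sub_distrib, ← Finset.sum_sub_distrib]
  refine Finset.sum_congr rfl fun a _ => ?_
  rw [← Finset.sum_sub_distrib, ← Finset.sum_sub_distrib]
  refine Finset.sum_congr rfl fun i _ => ?_
  rw [← Finset.sum_sub_distrib, ← Finset.sum_sub_distrib]
  refine Finset.sum_congr rfl fun j _ => ?_
  ring

/-- symmetry of the four-point tensor -/
theorem c4_symm' (x y z : AA hF h1) : nab hF h1 x (y * z) - nab hF h1 x y * z -
    y * nab hF h1 x z = nab hF h1 y (x * z) - nab hF h1 y x * z - x * nab hF h1 y z := by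
  funext k
  rw [c4_apply, c4_apply, Finset.sum_comm]
  refine Finset.sum_congr rfl fun i _ => Finset.sum_congr rfl fun a _ =>
    Finset.sum_congr rfl fun j _ => ?_
  rw [pderiv_qc_symm hF a i j k]
  ring

/-- **[c4]** from the grading equation -/
theorem c4_E (x y : AA hF h1) : nab hF h1 x (Eu hF h1 * y) - nab hF h1 x (Eu hF h1) * y -
    Eu hF h1 * nab hF h1 x y = x * dd hF h1 y + y * dd hF h1 x - dd hF h1 (x * y) := by
  funext k
  rw [c4_apply]
  have e1 : ∑ a, ∑ i, ∑ j, x a * (Eu hF h1) i * y j *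
      MvPowerSeries.pderiv (PowerSeries ℂ) a (qc F i j k) =
      ∑ a, ∑ j, x a * y j * eul X (qc F a j k) := by
    refine Finset.sum_congr rfl fun a _ => ?_
    rw [Finset.sum_comm]
    refine Finset.sum_congr rfl fun j _ => ?_
    rw [eul, Finset.mul_sum]
    refine Finset.sum_congr rfl fun i _ => ?_
    rw [pderiv_qc_symm hF a i j k]
    change x a * ((1 - ((i : ℕ) : RR X)) * MvPowerSeries.X i +
      if (i : ℕ) = 1 then ((index X : ℤ) : RR X) else 0) * y j * _ = _
    ring
  rw [e1]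
  have e2 : (x * dd hF h1 y + y * dd hF h1 x - dd hF h1 (x * y) : AA hF h1) k =
      ∑ i : Fin (X.dim + 1), ∑ j : Fin (X.dim + 1), x i * (((j : ℕ) : RR X) * y j) * qc F i j k +
      ∑ i : Fin (X.dim + 1), ∑ j : Fin (X.dim + 1), y i * (((j : ℕ) : RR X) * x j) * qc F i j k -
      ((k : ℕ) : RR X) * ∑ i : Fin (X.dim + 1), ∑ j : Fin (X.dim + 1), x i * y j * qc F i j k := by
    rw [sub_apply, add_apply, mul_apply, mul_apply]
    rfl
  have e3 : ∑ i : Fin (X.dim + 1), ∑ j : Fin (X.dim + 1),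
        y i * (((j : ℕ) : RR X) * x j) * qc F i j k =
      ∑ i : Fin (X.dim + 1), ∑ j : Fin (X.dim + 1),
        x i * (((i : ℕ) : RR X) * y j) * qc F i j k := by
    rw [Finset.sum_comm]
    refine Finset.sum_congr rfl fun i _ => Finset.sum_congr rfl fun j _ => ?_
    rw [qc_comm hF j i k]
    ring
  rw [e2, e3, Finset.mul_sum, ← Finset.sum_add_distrib, ← Finset.sum_sub_distrib]
  refine Finset.sum_congr rfl fun i _ => ?_
  rw [Finset.mul_sum, ← Finset.sum_add_distrib, ← Finset.sum_sub_distrib]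
  refine Finset.sum_congr rfl fun j _ => ?_
  rw [eul_qc hF, cst_sub, cst_add, cst_nat, cst_nat, cst_nat]
  ring

end Vale.Agent.P269.G1.H310
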